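import Vale.Agent.P343.H736.Avg
import Vale.Agent.P343.H741.Nontriv

/-!
# P343: small two-way nondeterministic automata err on a positive fraction of the long words
-/

namespace Vale.Agent.N343

open Vale.Agent.P343 Vale.Agent.P343.Box Vale.Agent.P343.H744 Vale.Agent.P343.H741
open Vale.Agent.P343.H736 (acts_pad length_pad)

section Exact

variable {V Q : Type}

/-- The lower bound for nondeterministic box automata for the complement. -/
def NLB (V : Type) (s0 f0 : V) (t : ℕ) : Prop :=
  ∀ (Q : Type) [Finite Q] (M : BAut (Sym V) Q),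
    (∀ w, M.Acc w ↔ ¬ RLang s0 f0 w) → t ≤ 2 * Nat.card Q

variable [Finite Q]

/-- A box automaton with too few states errs on some word of each large length. -/
theorem exact_length {s0 f0 : V} {t : ℕ} (hLB : NLB V s0 f0 t) (hQ : 2 * Nat.card Q < t)
    (M : BAut (Sym V) Q) : ∃ N0 : ℕ, ∀ N, N0 ≤ N → ∃ w : List (Sym V), w.length = N ∧
      ¬ (M.Acc w ↔ ¬ RLang s0 f0 w) := by
  classical
  by_contra hcon
  have hcon' : ∀ N0 : ℕ, ∃ N, N0 ≤ N ∧ ∀ w : List (Sym V), w.length = N →
      (M.Acc w ↔ ¬ RLang s0 f0 w) := by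
    intro N0
    by_contra h
    refine hcon ⟨N0, fun N hN => ?_⟩
    by_contra h'
    exact h ⟨N, hN, fun w hw => by_contra fun k => h' ⟨w, hw, k⟩⟩
  obtain ⟨p, hp0, hp⟩ := exists_pow_idem (M.G (idSym V))
  obtain ⟨r, hr⟩ : ∃ r : ℕ, ∀ N0 : ℕ, ∃ N, N0 ≤ N ∧ N % p = r ∧
      ∀ w : List (Sym V), w.length = N → (M.Acc w ↔ ¬ RLang s0 f0 w) := by
    by_contra h
    have h' : ∀ r : ℕ, ∃ N0 : ℕ, ∀ N, N0 ≤ N → N % p = r →
        ¬ ∀ w : List (Sym V), w.length = N → (M.Acc w ↔ ¬ RLang s0 f0 w) := by
      intro r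
      by_contra k
      refine h ⟨r, fun N0 => ?_⟩
      by_contra k'
      exact k ⟨N0, fun N h1 h2 h3 => k' ⟨N, h1, h2, h3⟩⟩
    choose b hb using h'
    obtain ⟨N, hN, hN2⟩ := hcon' (∑ i ∈ Finset.range p, b i)
    have h1 : N % p < p := Nat.mod_lt _ hp0
    have h2 : b (N % p) ≤ N :=
      (Finset.single_le_sum (f := b) (fun i _ => Nat.zero_le _) (Finset.mem_range.2 h1)).trans hN
    exact hb (N % p) N h2 rfl hN2
  set g := M.G (idSym V) with hg
  have hidem : ∀ k : ℕ, (g ^ p) ^ (k + 1) = g ^ p := by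
    intro k
    induction k with
    | zero => simp
    | succ k ih => rw [pow_succ, ih, hp]
  refine absurd (hLB Q ⟨fun a => M.G a * g ^ (p - 1), M.bl, g ^ p * g ^ r * M.br, M.start,
    M.fin⟩ ?_) (not_le.2 hQ)
  intro w
  obtain ⟨N, hN, hNr, hN2⟩ := hr (w.length * p + p)
  obtain ⟨k, hk⟩ : ∃ k, N = w.length * p + ((k + 1) * p + r) := by
    have h1 : N = p * (N / p) + r := by rw [← hNr]; exact (Nat.div_add_mod N p).symm
    have h2 : w.length + 1 ≤ N / p := by
      rw [Nat.le_div_iff_mul_le hp0]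
      calc (w.length + 1) * p = w.length * p + p := by ring
        _ ≤ N := hN
    obtain ⟨k, hk⟩ := Nat.exists_eq_add_of_le h2
    refine ⟨k, ?_⟩
    rw [h1, hk]; ring
  have hlen : ((w.flatMap fun a => a :: List.replicate (p - 1) (idSym V)) ++
      List.replicate ((k + 1) * p + r) (idSym V)).length = N := by
    rw [List.length_append, length_pad, List.length_replicate, Nat.sub_add_cancel hp0, hk]
  have h1 := hN2 _ hlen
  have h2 : RLang s0 f0 ((w.flatMap fun a => a :: List.replicate (p - 1) (idSym V)) ++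
      List.replicate ((k + 1) * p + r) (idSym V)) ↔ RLang s0 f0 w := by
    unfold RLang
    rw [acts_append1, H736.acts_replicate_id, acts_pad]
  rw [← h2, ← h1]
  have h3 : (((w.flatMap fun a => a :: List.replicate (p - 1) (idSym V)) ++
      List.replicate ((k + 1) * p + r) (idSym V)).map M.G).prod =
      (w.map fun a => M.G a * g ^ (p - 1)).prod * (g ^ p * g ^ r) := by
    rw [List.map_append, List.prod_append, prod_flat', List.map_replicate, List.prod_replicate,
      ← hg]
    congr 1
    · congr 1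
      apply List.map_congr_left
      intro a _
      rw [List.map_cons, List.prod_cons, List.map_replicate, List.prod_replicate]
    · rw [pow_add, Nat.mul_comm, pow_mul, hidem]
  unfold BAut.Acc
  rw [h3]
  simp only [mul_assoc]

instance finiteBAut [Finite V] : Finite (BAut (Sym V) Q) := by
  apply Finite.of_injective (fun M : BAut (Sym V) Q => (M.G, M.bl, M.br, M.start, M.fin))
  rintro ⟨a, b, c, d, e⟩ ⟨a', b', c', d', e'⟩ h
  simp only [Prod.mk.injEq] at h
  obtain ⟨rfl, rfl, rfl, rfl, rfl⟩ := h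
  rfl

/-- One length works for all box automata with too few states. -/
theorem uniform_length [Finite V] {s0 f0 : V} {t : ℕ} (hLB : NLB V s0 f0 t)
    (hQ : 2 * Nat.card Q < t) : ∃ l : ℕ, ∀ M : BAut (Sym V) Q, ∃ w : List (Sym V),
      w.length = l ∧ ¬ (M.Acc w ↔ ¬ RLang s0 f0 w) := by
  choose N0 hN0 using fun M : BAut (Sym V) Q => exact_length hLB hQ M
  obtain ⟨l, hl⟩ := (Set.finite_range N0).bddAbove
  exact ⟨l, fun M => hN0 M l (hl (Set.mem_range_self M))⟩

end Exact

/-- Average-case transfer. -/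
theorem avg_transfer {V α : Type} [Finite V] [Fintype α] {s0 f0 : V} {t : ℕ}
    (hLB : NLB V s0 f0 t) (hα : 0 < Fintype.card α) (P : List α → Prop) (R : List α)
    (enc : Sym V → List α) (L0 : ℕ) (hlen : ∀ a, (enc a).length = L0)
    (hP : ∀ (x : List α) (w : List (Sym V)), P ((x ++ R) ++ w.flatMap enc) ↔ RLang s0 f0 w)
    (s : ℕ) (hs : 2 * (s + 1) < t) : ∃ ε : ℝ, 0 < ε ∧ ∃ N0 : ℕ, ∀ N, N0 ≤ N →
      ∀ B : TwoNFA α (Fin s), ε * (Fintype.card α : ℝ) ^ N ≤
        (({w : List α | w.length = N ∧ ¬ (B.Accepts w ↔ ¬ P w)}.ncard : ℕ) : ℝ) := by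
  classical
  obtain ⟨l, hl⟩ := uniform_length (Q := Option (Fin s)) hLB (by
    rw [Nat.card_eq_fintype_card, Fintype.card_option, Fintype.card_fin]; exact hs)
  have hαR : (0 : ℝ) < Fintype.card α := by exact_mod_cast hα
  refine ⟨((Fintype.card α : ℝ) ^ (l * L0 + R.length))⁻¹, by positivity, l * L0 + R.length, ?_⟩
  intro N hN B
  obtain ⟨m, rfl⟩ := Nat.exists_eq_add_of_le hN
  obtain ⟨M, hM⟩ := H69.aut α s B
  have hx : ∀ x : List α, ∃ w : List (Sym V), w.length = l ∧
      ¬ (B.Accepts ((x ++ R) ++ w.flatMap enc) ↔ ¬ P ((x ++ R) ++ w.flatMap enc)) := by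
    intro x
    obtain ⟨w, hw1, hw2⟩ := hl ⟨fun a => ((enc a).map M.G).prod,
      M.bl * ((x ++ R).map M.G).prod, M.br, M.start, M.fin⟩
    refine ⟨w, hw1, ?_⟩
    rw [hP, ← hM]
    intro h
    apply hw2
    rw [← h]
    unfold BAut.Acc
    rw [List.map_append (l₁ := x ++ R), List.prod_append, prod_flat']
    simp only [mul_assoc]
  choose W hW1 hW2 using hx
  have hWlen : ∀ x, ((W x).flatMap enc).length = l * L0 := by
    intro x
    have : ∀ w : List (Sym V), (w.flatMap enc).length = w.length * L0 := by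
      intro w
      induction w with
      | nil => simp
      | cons a w ih =>
        rw [List.flatMap_cons, List.length_append, ih, hlen, List.length_cons]; ring
    rw [this, hW1]
  let F : (Fin m → α) → List α := fun u => (List.ofFn u ++ R) ++ (W (List.ofFn u)).flatMap enc
  have hF : Function.Injective F := by
    intro u v huv
    have h0 : List.ofFn u ++ (R ++ (W (List.ofFn u)).flatMap enc) =
        List.ofFn v ++ (R ++ (W (List.ofFn v)).flatMap enc) := by
      rw [← List.append_assoc, ← List.append_assoc]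
      exact huv
    have h1 := List.append_inj_left h0 (by simp)
    exact List.ofFn_injective h1
  have hsub : Set.range F ⊆ {w : List α | w.length = l * L0 + R.length + m ∧
      ¬ (B.Accepts w ↔ ¬ P w)} := by
    rintro _ ⟨u, rfl⟩
    refine ⟨?_, hW2 _⟩
    show ((List.ofFn u ++ R) ++ (W (List.ofFn u)).flatMap enc).length = _
    rw [List.length_append, List.length_append, List.length_ofFn, hWlen]
    ring
  have hfin : {w : List α | w.length = l * L0 + R.length + m ∧
      ¬ (B.Accepts w ↔ ¬ P w)}.Finite :=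
    (List.finite_length_eq α (l * L0 + R.length + m)).subset fun w hw => hw.1
  have h1 : Fintype.card α ^ m ≤ {w : List α | w.length = l * L0 + R.length + m ∧
      ¬ (B.Accepts w ↔ ¬ P w)}.ncard := by
    calc Fintype.card α ^ m = Nat.card (Fin m → α) := by
          rw [Nat.card_eq_fintype_card, Fintype.card_fun, Fintype.card_fin]
      _ = (Set.univ : Set (Fin m → α)).ncard := (Set.ncard_univ _).symm
      _ = (Set.range F).ncard := by
          rw [← Set.image_univ, Set.ncard_image_of_injective _ hF]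
      _ ≤ _ := Set.ncard_le_ncard hsub hfin
  have h2 : ((Fintype.card α : ℝ) ^ (l * L0 + R.length))⁻¹ *
      (Fintype.card α : ℝ) ^ (l * L0 + R.length + m) = (Fintype.card α : ℝ) ^ m := by
    rw [pow_add _ (l * L0 + R.length) m, ← mul_assoc, inv_mul_cancel₀ (by positivity), one_mul]
  rw [h2]
  exact_mod_cast h1

open Vale.Agent.P343.H736 in
/-- Over every finite alphabet with at least two letters there are one-way nondeterministic
automata with `n` states such that every two-way nondeterministic automaton with exponentially few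
states differs from the complement on a positive fraction of the words of every large length. -/
theorem avg_lower (α : Type) [Fintype α] (hα : 2 ≤ Fintype.card α) (n j : ℕ)
    (hn : 66 * j + 160 ≤ n) :
    ∃ A : TwoNFA α (Fin n), A.OneWay ∧ ∀ s : ℕ, s < 2 ^ j → ∃ ε : ℝ, 0 < ε ∧ ∃ N0 : ℕ,
      ∀ N, N0 ≤ N → ∀ B : TwoNFA α (Fin s), ε * (Fintype.card α : ℝ) ^ N ≤
        (({w : List α | w.length = N ∧ ¬ (B.Accepts w ↔ ¬ A.Accepts w)}.ncard : ℕ) : ℝ) := by
  classical
  obtain ⟨a, b, hab⟩ := Fintype.exists_pair_of_one_lt_card (α := α) (by omega)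
  obtain ⟨p, hp, hodd, hp1, hp2⟩ : ∃ p : ℕ, p.Coprime 5 ∧ p % 2 = 1 ∧ 33 * j + 69 ≤ p ∧
      p ≤ 33 * j + 72 := by
    have h5 : Nat.Prime 5 := by norm_num
    obtain ⟨p0, h1, h2, h3⟩ : ∃ p0, 33 * j + 69 ≤ p0 ∧ p0 ≤ 33 * j + 70 ∧ p0 % 2 = 1 := by
      by_cases h : (33 * j + 69) % 2 = 1
      · exact ⟨_, le_rfl, by omega, h⟩
      · exact ⟨33 * j + 70, by omega, le_rfl, by omega⟩
    by_cases h : 5 ∣ p0
    · refine ⟨p0 + 2, ?_, by omega, by omega, by omega⟩
      exact ((Nat.Prime.coprime_iff_not_dvd h5).2 (by omega)).symm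
    · exact ⟨p0, ((Nat.Prime.coprime_iff_not_dvd h5).2 h).symm, h3, h1, by omega⟩
  have : NeZero p := ⟨by omega⟩
  obtain ⟨g⟩ : Nonempty (Option (Fin (33 * j + 68)) ↪ ZMod p) := by
    apply Function.Embedding.nonempty_of_card_le
    rw [Fintype.card_option, Fintype.card_fin, ZMod.card]
    omega
  -- words of one length for all letters
  have hlet := fun c => real_length (ι := fun v => g (some v)) a b hodd (letters hp g c)
  choose L1 hL1 using hlet
  obtain ⟨L0, hL0⟩ := (Set.finite_range L1).bddAbove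
  have hL0' : ∀ c, L1 c ≤ L0 := fun c => hL0 (Set.mem_range_self c)
  choose encB hlenB hencB using fun c => hL1 c L0 (hL0' c)
  obtain ⟨e⟩ : Nonempty (Option (Option (Option (Option (Pl p ⊕ Pl p)))) ↪ Fin n) := by
    apply Function.Embedding.nonempty_of_card_le
    rw [Fintype.card_option, Fintype.card_option, Fintype.card_option, Fintype.card_option,
      Fintype.card_sum, Fintype.card_sum, ZMod.card, ZMod.card, Fintype.card_fin]
    omega
  have hne : (⟨0, by omega⟩ : Fin (33 * j + 68)) ≠ ⟨1, by omega⟩ := by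
    intro h
    have h1 := congrArg Fin.val h
    simp at h1
  have hLB : NLB (Fin (33 * j + 68)) ⟨0, by omega⟩ ⟨1, by omega⟩ (2 ^ (j + 2)) :=
    fun Q _ M hM => H744.lin_LB stepAll baseAll topAll (j + 2) _ _ _ hne
      (by rw [Fintype.card_fin]; omega) Q M hM
  set q0 : Pl p := Sum.inl (g (some ⟨0, by omega⟩)) with hq0
  set q1 : Pl p := Sum.inl (g (some ⟨1, by omega⟩)) with hq1
  have he : Function.Injective (fun o : Option (RS (Pl p)) => e (o.map toOpt)) :=
    e.injective.comp (Option.map_injective toOpt_injective)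
  have hA : ∀ w, (aut (Gr (dl p) a b q0) RS.run (RS.ph q1)
      (fun o : Option (RS (Pl p)) => e (o.map toOpt))).Accepts w ↔
      Reach (Gr (dl p) a b q0) w RS.run (RS.ph q1) := fun w => aut_accepts he w
  have hP : ∀ (x : List α) (w : List (Sym (Fin (33 * j + 68)))),
      (aut (Gr (dl p) a b q0) RS.run (RS.ph q1)
        (fun o : Option (RS (Pl p)) => e (o.map toOpt))).Accepts
        ((x ++ [b, b, a]) ++ w.flatMap fun c => (encB c).flatMap (phi a b)) ↔
        RLang ⟨0, by omega⟩ ⟨1, by omega⟩ w := by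
    intro x w
    rw [hA, ← List.flatMap_assoc, reach_reset hab, hq0,
      coding (ι := fun v => (Sum.inl (g (some v)) : Pl p)) hencB w]
    constructor
    · rintro ⟨y, h1, h2⟩
      have h3 := Option.some_injective _ (g.injective (Sum.inl_injective h1))
      rw [← h3] at h2
      exact h2
    · intro h1
      exact ⟨_, rfl, h1⟩
  exact ⟨_, aut_oneWay _ _ _ _, fun s hs => N343.avg_transfer hLB (by omega) _ [b, b, a]
    (fun c => (encB c).flatMap (phi a b)) L0 hlenB hP s (by rw [pow_add]; omega)⟩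

end Vale.Agent.N343
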