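import Vale.Agent.P343.H744.Upper

/-!
# P343: on short words polynomially many states suffice (inductive counting)
-/

namespace Vale.Agent.N343

open Vale.Agent.P343 Vale.Agent.P343.H744 Relation Set

variable {α σ : Type}

/-- The position of the head after a move. -/
def mvp (i : ℕ) : Move → ℕ
  | Move.left => i - 1
  | Move.stay => i
  | Move.right => i + 1

theorem next_of_step {A : TwoNFA α σ} {w : List α} {i : ℕ} {p q : σ} {mv : Move}
    (h : A.step p (tape w i) q mv) : A.Next w (i, p) (mvp i mv, q) := by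
  cases mv with
  | left =>
    cases i with
    | zero => exact absurd h (A.not_beyond_left _ _)
    | succ i => exact TwoNFA.Next.left _ _ _ h
  | stay => exact TwoNFA.Next.stay _ _ _ h
  | right => exact TwoNFA.Next.right _ _ _ h

theorem step_of_next {A : TwoNFA α σ} {w : List α} {x y : ℕ × σ} (h : A.Next w x y) :
    ∃ mv, A.step x.2 (tape w x.1) y.2 mv ∧ y.1 = mvp x.1 mv := by
  cases h with
  | left i p q h => exact ⟨_, h, rfl⟩
  | stay i p q h => exact ⟨_, h, rfl⟩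
  | right i p q h => exact ⟨_, h, rfl⟩

/-! ### Restriction of the set of states -/

/-- The automaton pulled back along a map of the states. -/
def pull {ι : Type} (B : TwoNFA α σ) (g : ι → σ) (i0 : ι) : TwoNFA α ι where
  start := i0
  accept := g ⁻¹' B.accept
  step a t b mv := B.step (g a) t (g b) mv
  not_beyond_left _ _ := B.not_beyond_left _ _
  not_beyond_right _ _ := B.not_beyond_right _ _

theorem pull_accepts {ι : Type} {B : TwoNFA α σ} {g : ι → σ} {i0 : ι} (h0 : g i0 = B.start)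
    (hg : ∀ p t q mv, B.step p t q mv → q ∈ range g) (w : List α) :
    (pull B g i0).Accepts w ↔ B.Accepts w := by
  constructor
  · rintro ⟨i, q, h, hq⟩
    refine ⟨i, g q, ?_, hq⟩
    have key : ∀ c, ReflTransGen ((pull B g i0).Next w) (0, i0) c →
        ReflTransGen (B.Next w) (0, B.start) (c.1, g c.2) := by
      intro c hc
      induction hc with
      | refl => rw [h0]
      | tail _ h1 ih =>
        obtain ⟨mv, k1, k2⟩ := step_of_next h1
        rw [k2]
        exact ih.tail (next_of_step k1)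
    exact key _ h
  · rintro ⟨i, q, h, hq⟩
    have key : ∀ c, ReflTransGen (B.Next w) (0, B.start) c →
        ∃ a, g a = c.2 ∧ ReflTransGen ((pull B g i0).Next w) (0, i0) (c.1, a) := by
      intro c hc
      induction hc with
      | refl => exact ⟨i0, h0, ReflTransGen.refl⟩
      | tail _ h1 ih =>
        obtain ⟨mv, k1, k2⟩ := step_of_next h1
        obtain ⟨a, ha, ih⟩ := ih
        obtain ⟨b, hb⟩ := hg _ _ _ _ k1
        refine ⟨b, hb, ?_⟩
        rw [k2]
        exact ih.tail (next_of_step (A := pull B g i0) (by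
          change B.step (g a) _ (g b) mv
          rwa [ha, hb]))
    obtain ⟨a, ha, k⟩ := key _ h
    exact ⟨i, a, k, by change g a ∈ B.accept; rwa [ha]⟩

/-! ### Configurations which are reached in a bounded number of steps -/

/-- The configurations which are reached in at most `m` steps. -/
def Rch (A : TwoNFA α σ) (w : List α) : ℕ → Set (ℕ × σ)
  | 0 => {(0, A.start)}
  | m + 1 => Rch A w m ∪ {y | ∃ x ∈ Rch A w m, A.Next w x y}

variable {A : TwoNFA α σ} {w : List α}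

theorem rch_mono : Monotone (Rch A w) := monotone_nat_of_le_succ fun _ => subset_union_left

theorem rch_reach {m : ℕ} {y : ℕ × σ} (h : y ∈ Rch A w m) :
    ReflTransGen (A.Next w) (0, A.start) y := by
  induction m generalizing y with
  | zero => rw [show y = (0, A.start) from h]
  | succ m ih =>
    rcases h with h | ⟨x, hx, h⟩
    · exact ih h
    · exact (ih hx).tail h

theorem reach_rch {y : ℕ × σ} (h : ReflTransGen (A.Next w) (0, A.start) y) :
    ∃ m, y ∈ Rch A w m := by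
  induction h with
  | refl => exact ⟨0, rfl⟩
  | tail _ h1 ih =>
    obtain ⟨m, hm⟩ := ih
    exact ⟨m + 1, Or.inr ⟨_, hm, h1⟩⟩

theorem rch_pos {m : ℕ} {y : ℕ × σ} (h : y ∈ Rch A w m) : y.1 ≤ w.length + 1 := by
  replace h := rch_reach h
  induction h with
  | refl => exact Nat.zero_le _
  | tail _ h1 ih =>
    cases h1 with
    | left i p q k => exact (Nat.le_succ _).trans ih
    | stay i p q k => exact ih
    | right i p q k =>
      by_contra hi
      rw [tape_eq (by simp only at hi; omega)] at k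
      exact A.not_beyond_right _ _ k

theorem rch_stable {j : ℕ} (h : Rch A w (j + 1) ⊆ Rch A w j) (m : ℕ) : Rch A w m ⊆ Rch A w j := by
  induction m with
  | zero => exact rch_mono (Nat.zero_le j)
  | succ m ih =>
    rintro y (k | ⟨x, hx, k⟩)
    · exact ih k
    · exact h (Or.inr ⟨x, ih hx, k⟩)

variable {code : ℕ × σ → ℕ} {K : ℕ}

theorem ncard_le_of_sub {S : Set ℕ} (h : S ⊆ Iio K) : S.ncard ≤ K := by
  have := ncard_le_ncard h (finite_Iio K)
  rwa [← Finset.coe_Iio, ncard_coe_finset, Nat.card_Iio] at this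

theorem rch_all (hc : Function.Injective code) (hK : ∀ m, code '' Rch A w m ⊆ Iio K) (m : ℕ) :
    Rch A w m ⊆ Rch A w K := by
  have key : ∀ k, (∃ j ≤ k, Rch A w (j + 1) ⊆ Rch A w j) ∨ k < (code '' Rch A w k).ncard := by
    intro k
    induction k with
    | zero => exact Or.inr (by simp [Rch])
    | succ k ih =>
      rcases ih with ⟨j, hj, h⟩ | h
      · exact Or.inl ⟨j, by omega, h⟩
      · by_cases e : Rch A w (k + 1) ⊆ Rch A w k
        · exact Or.inl ⟨k, by omega, e⟩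
        · refine Or.inr (lt_of_le_of_lt h (ncard_lt_ncard ⟨image_mono subset_union_left,
            fun e' => e ((image_subset_image_iff hc).1 e')⟩ ((finite_Iio K).subset (hK _))))
  rcases key K with ⟨j, hj, h⟩ | h
  · exact (rch_stable h m).trans (rch_mono hj)
  · exact absurd (ncard_le_of_sub (hK K)) (not_le.2 h)

/-! ### The counting automaton -/

/-- The states: phase, stage, bound of the stage, candidate and bound for the next stage, candidate
and counter of the inner loop, simulated configuration and number of simulated steps. -/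
structure St where
  ph : ℕ
  k : ℕ
  c : ℕ
  v : ℕ
  e : ℕ
  u : ℕ
  d : ℕ
  x : ℕ
  m : ℕ

/-- The transitions. -/
inductive Tr (A : TwoNFA α σ) (code : ℕ × σ → ℕ) (K : ℕ) : St → TapeSym α → St → Move → Prop
  | fin (c v e t) : Tr A code K ⟨0, K, c, v, e, 0, 0, 0, 0⟩ t ⟨4, 0, 0, 0, 0, 0, 0, 0, 0⟩ Move.stay
  | stage (k c e t) :
      Tr A code K ⟨0, k, c, K, e, 0, 0, 0, 0⟩ t ⟨0, k + 1, e, 0, 0, 0, 0, 0, 0⟩ Move.stay
  | skip (k c v e t) : (∀ y, code y = v → y.2 ∉ A.accept) →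
      Tr A code K ⟨0, k, c, v, e, 0, 0, 0, 0⟩ t ⟨0, k, c, v + 1, e + 1, 0, 0, 0, 0⟩ Move.stay
  | enter (k c v e t) :
      Tr A code K ⟨0, k, c, v, e, 0, 0, 0, 0⟩ t ⟨1, k, c, v, e, 0, 0, 0, 0⟩ Move.stay
  | pass (k c v e u d t) :
      Tr A code K ⟨1, k, c, v, e, u, d, 0, 0⟩ t ⟨1, k, c, v, e, u + 1, d, 0, 0⟩ Move.stay
  | test (k c v e u d t) :
      Tr A code K ⟨1, k, c, v, e, u, d, 0, 0⟩ t ⟨2, k, c, v, e, u, d, 0, 0⟩ Move.stay
  | leave (k c v e u d t) : c ≤ d →
      Tr A code K ⟨1, k, c, v, e, u, d, 0, 0⟩ t ⟨0, k, c, v + 1, e, 0, 0, 0, 0⟩ Move.stay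
  | back (k c v e u d t) : t ≠ TapeSym.leftEnd →
      Tr A code K ⟨2, k, c, v, e, u, d, 0, 0⟩ t ⟨2, k, c, v, e, u, d, 0, 0⟩ Move.left
  | start0 (k c v e u d) : Tr A code K ⟨2, k, c, v, e, u, d, 0, 0⟩ TapeSym.leftEnd
      ⟨3, k, c, v, e, u, d, code (0, A.start), 0⟩ Move.stay
  | sim (k c v e u d m t i p q mv) : m < k → A.step p t q mv →
      Tr A code K ⟨3, k, c, v, e, u, d, code (i, p), m⟩ t
        ⟨3, k, c, v, e, u, d, code (mvp i mv, q), m + 1⟩ mv
  | found (k c v e d m t i p) : code (i, p) ≠ v →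
      (∀ q mv, A.step p t q mv → code (mvp i mv, q) ≠ v) →
      Tr A code K ⟨3, k, c, v, e, code (i, p), d, code (i, p), m⟩ t
        ⟨1, k, c, v, e, code (i, p) + 1, d + 1, 0, 0⟩ Move.stay

/-- All entries are bounded. -/
def St.Bd (s : St) (K : ℕ) : Prop :=
  s.ph ≤ 4 ∧ s.k ≤ K ∧ s.c ≤ K ∧ s.v ≤ K ∧ s.e ≤ K ∧ s.u ≤ K ∧ s.d ≤ K ∧ s.x ≤ K ∧ s.m ≤ K

/-- The counting automaton. -/
def cnt (A : TwoNFA α σ) (code : ℕ × σ → ℕ) (K : ℕ) : TwoNFA α St where
  start := ⟨0, 0, 1, 0, 0, 0, 0, 0, 0⟩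
  accept := {s | s.ph = 4}
  step p t q mv := Tr A code K p t q mv ∧ q.Bd K
  not_beyond_left := by
    rintro p q ⟨h, -⟩
    cases h with
    | back k c v e u d t h => exact h rfl
    | sim k c v e u d m t i p q mv _ h => exact A.not_beyond_left _ _ h
  not_beyond_right := by
    rintro p q ⟨h, -⟩
    cases h with
    | sim k c v e u d m t i p q mv _ h => exact A.not_beyond_right _ _ h

/-- The codes of configurations of the stage `k` which are not `v` and do not lead to `v`. -/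
def Gd (A : TwoNFA α σ) (w : List α) (code : ℕ × σ → ℕ) (k v : ℕ) : Set ℕ :=
  code '' {y | y ∈ Rch A w k ∧ code y ≠ v ∧ ∀ z, A.Next w y z → code z ≠ v}

/-- The invariant. -/
def Inv (A : TwoNFA α σ) (w : List α) (code : ℕ × σ → ℕ) (i : ℕ) (s : St) : Prop :=
  (s.ph = 4 ∧ ¬ A.Accepts w) ∨ (s.ph < 4 ∧ (code '' Rch A w s.k).ncard ≤ s.c ∧
    (s.k ≠ 0 → ∀ y ∈ Rch A w s.k, y.2 ∉ A.accept) ∧
    (code '' Rch A w (s.k + 1) ∩ Iio s.v).ncard ≤ s.e ∧
    (∀ y ∈ Rch A w (s.k + 1), code y < s.v → y.2 ∉ A.accept) ∧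
    s.d ≤ (Gd A w code s.k s.v ∩ Iio s.u).ncard ∧
    (s.ph = 3 → ∃ p, s.x = code (i, p) ∧ (i, p) ∈ Rch A w s.m ∧ s.m ≤ s.k))

theorem ncard_succ (S : Set ℕ) (v : ℕ) :
    (v ∉ S ∧ S ∩ Iio (v + 1) = S ∩ Iio v) ∨
      (v ∈ S ∧ (S ∩ Iio (v + 1)).ncard = (S ∩ Iio v).ncard + 1) := by
  by_cases h : v ∈ S
  · refine Or.inr ⟨h, ?_⟩
    have : S ∩ Iio (v + 1) = insert v (S ∩ Iio v) := by
      ext z
      simp only [mem_inter_iff, mem_Iio, mem_insert_iff]
      constructor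
      · rintro ⟨h1, h2⟩
        rcases Nat.lt_succ_iff_lt_or_eq.1 h2 with h3 | h3
        · exact Or.inr ⟨h1, h3⟩
        · exact Or.inl h3
      · rintro (rfl | ⟨h1, h2⟩)
        · exact ⟨h, Nat.lt_succ_self _⟩
        · exact ⟨h1, by omega⟩
    rw [this, ncard_insert_of_notMem (by simp) ((finite_Iio v).subset inter_subset_right)]
  · refine Or.inl ⟨h, ?_⟩
    ext z
    simp only [mem_inter_iff, mem_Iio]
    refine ⟨fun ⟨h1, h2⟩ => ⟨h1, ?_⟩, fun ⟨h1, h2⟩ => ⟨h1, by omega⟩⟩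
    rcases Nat.lt_succ_iff_lt_or_eq.1 h2 with h3 | rfl
    · exact h3
    · exact absurd h1 h

theorem inv_step (hc : Function.Injective code) (hK : ∀ m, code '' Rch A w m ⊆ Iio K)
    {i : ℕ} {s s' : St} {mv : Move} (h : Inv A w code i s) (tr : Tr A code K s (tape w i) s' mv) :
    Inv A w code (mvp i mv) s' := by
  have fin : ∀ m, (code '' Rch A w m).Finite := fun m => (finite_Iio K).subset (hK m)
  have hK0 : K ≠ 0 := fun e => by
    have := hK 0 ⟨_, rfl, rfl⟩
    rw [e] at this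
    exact Nat.not_lt_zero _ this
  generalize ht : tape w i = t at tr
  rcases h with ⟨h, -⟩ | ⟨-, h1, h2, h3, h4, h5, h6⟩
  · cases tr <;> simp at h
  cases tr with
  | fin c v e t =>
    refine Or.inl ⟨rfl, ?_⟩
    rintro ⟨j, q, k1, k2⟩
    obtain ⟨m, hm⟩ := reach_rch k1
    exact h2 hK0 _ (rch_all hc hK m hm) k2
  | stage k c e t =>
    refine Or.inr ⟨by simp, ?_, fun _ y hy => h4 y hy (hK _ ⟨y, hy, rfl⟩), by simp,
      fun y _ hy => absurd hy (Nat.not_lt_zero _), Nat.zero_le _, by simp⟩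
    rwa [inter_eq_left.2 (hK _)] at h3
  | skip k c v e t hv =>
    refine Or.inr ⟨by simp, h1, h2, ?_, fun y hy k1 => ?_, Nat.zero_le _, by simp⟩
    · rcases ncard_succ (code '' Rch A w (k + 1)) v with ⟨-, k1⟩ | ⟨-, k1⟩
      · simp only [k1]
        exact h3.trans (Nat.le_succ _)
      · simp only [k1]
        exact Nat.succ_le_succ h3
    · rcases Nat.lt_succ_iff_lt_or_eq.1 k1 with k2 | k2
      · exact h4 y hy k2
      · exact hv y k2
  | enter k c v e t => exact Or.inr ⟨by simp, h1, h2, h3, h4, h5, by simp⟩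
  | pass k c v e u d t =>
    exact Or.inr ⟨by simp, h1, h2, h3, h4, h5.trans (ncard_le_ncard (inter_subset_inter_right _
      (Iio_subset_Iio (Nat.le_succ _))) ((finite_Iio _).subset inter_subset_right)), by simp⟩
  | test k c v e u d t => exact Or.inr ⟨by simp, h1, h2, h3, h4, h5, by simp⟩
  | leave k c v e u d t hd =>
    have s1 : Gd A w code k v ⊆ code '' Rch A w k := image_mono fun y hy => hy.1
    have s2 : Gd A w code k v = code '' Rch A w k :=
      eq_of_subset_of_ncard_le s1 (h1.trans (hd.trans (h5.trans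
        (ncard_le_ncard inter_subset_left ((fin k).subset s1))))) (fin k)
    have s3 : ∀ y ∈ Rch A w k, code y ≠ v ∧ ∀ z, A.Next w y z → code z ≠ v := by
      intro y hy
      obtain ⟨y', k1, k2⟩ : code y ∈ Gd A w code k v := s2 ▸ mem_image_of_mem code hy
      rw [← hc k2]
      exact k1.2
    have s4 : ∀ y ∈ Rch A w (k + 1), code y ≠ v := by
      rintro y (hy | ⟨x, hx, hy⟩)
      · exact (s3 y hy).1
      · exact (s3 x hx).2 y hy
    refine Or.inr ⟨by simp, h1, h2, ?_, fun y hy k1 => h4 y hy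
      (lt_of_le_of_ne (Nat.lt_succ_iff.1 k1) (s4 y hy)), Nat.zero_le _, by simp⟩
    rcases ncard_succ (code '' Rch A w (k + 1)) v with ⟨-, k1⟩ | ⟨⟨y, hy, k1⟩, -⟩
    · simpa only [k1] using h3
    · exact absurd k1 (s4 y hy)
  | back k c v e u d t _ => exact Or.inr ⟨by simp, h1, h2, h3, h4, h5, by simp⟩
  | start0 k c v e u d =>
    have hi : i = 0 := by
      by_contra hi
      unfold tape at ht
      rw [if_neg hi] at ht
      split_ifs at ht
    subst hi
    exact Or.inr ⟨by simp, h1, h2, h3, h4, h5, fun _ => ⟨A.start, rfl, rfl, Nat.zero_le _⟩⟩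
  | sim k c v e u d m t j p q mv hm hs =>
    obtain ⟨p', k1, k2, -⟩ := h6 rfl
    obtain ⟨rfl, rfl⟩ := Prod.mk.inj (hc k1)
    exact Or.inr ⟨by simp, h1, h2, h3, h4, h5, fun _ => ⟨q, rfl,
      Or.inr ⟨_, k2, next_of_step (ht ▸ hs)⟩, hm⟩⟩
  | found k c v e d m t j p hv hs =>
    obtain ⟨p', k1, k2, k3⟩ := h6 rfl
    obtain ⟨rfl, rfl⟩ := Prod.mk.inj (hc k1)
    refine Or.inr ⟨by simp, h1, h2, h3, h4, ?_, by simp⟩
    rcases ncard_succ (Gd A w code k v) (code (j, p)) with ⟨k4, -⟩ | ⟨-, k4⟩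
    · refine absurd ⟨(j, p), ⟨rch_mono k3 k2, hv, fun z hz => ?_⟩, rfl⟩ k4
      obtain ⟨mv, k5, k6⟩ := step_of_next hz
      have := hs z.2 mv (ht ▸ k5)
      rwa [← k6] at this
    · simp only [k4]
      exact Nat.succ_le_succ h5

theorem cnt_sound (hc : Function.Injective code) (hK : ∀ m, code '' Rch A w m ⊆ Iio K)
    (h : (cnt A code K).Accepts w) : ¬ A.Accepts w := by
  have key : ∀ c, ReflTransGen ((cnt A code K).Next w) (0, (cnt A code K).start) c →
      Inv A w code c.1 c.2 := by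
    intro c hc'
    induction hc' with
    | refl =>
      exact Or.inr ⟨by simp [cnt], by simp [cnt, Rch], fun h => absurd rfl h, by simp [cnt],
        fun y _ h => absurd h (Nat.not_lt_zero _), Nat.zero_le _, by simp [cnt]⟩
    | tail _ h1 ih =>
      obtain ⟨mv, k1, k2⟩ := step_of_next h1
      rw [k2]
      exact inv_step hc hK ih k1.1
  obtain ⟨i, q, h1, h2⟩ := h
  rcases key _ h1 with k | k
  · exact k.2
  · exact absurd h2 k.1.ne

/-! ### Completeness -/

section Complete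

/-- Runs of the counting automaton. -/
abbrev Run (A : TwoNFA α σ) (code : ℕ × σ → ℕ) (K : ℕ) (w : List α) :
    ℕ × St → ℕ × St → Prop := ReflTransGen ((cnt A code K).Next w)

theorem Run.step {x : ℕ × St} {i : ℕ} {s s' : St} {mv : Move} (h : Run A code K w x (i, s))
    (tr : Tr A code K s (tape w i) s' mv) (hb : s'.Bd K) : Run A code K w x (mvp i mv, s') :=
  h.tail (next_of_step (A := cnt A code K) ⟨tr, hb⟩)

variable {k c v e u d : ℕ}

theorem run_back (hb : St.Bd ⟨2, k, c, v, e, u, d, 0, 0⟩ K) (i : ℕ) :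
    Run A code K w (i, ⟨2, k, c, v, e, u, d, 0, 0⟩) (0, ⟨2, k, c, v, e, u, d, 0, 0⟩) := by
  induction i with
  | zero => exact ReflTransGen.refl
  | succ i ih =>
    refine ReflTransGen.trans (Run.step ReflTransGen.refl (Tr.back _ _ _ _ _ _ _ ?_) hb) ih
    unfold tape
    rw [if_neg (by omega)]
    split_ifs <;> simp

theorem run_sim (hK : ∀ m, code '' Rch A w m ⊆ Iio K)
    (hb : St.Bd ⟨2, k, c, v, e, u, d, 0, 0⟩ K) {m : ℕ} (hm : m ≤ k) {y : ℕ × σ}
    (hy : y ∈ Rch A w m) : ∃ m' ≤ m,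
      Run A code K w (0, ⟨3, k, c, v, e, u, d, code (0, A.start), 0⟩)
        (y.1, ⟨3, k, c, v, e, u, d, code y, m'⟩) := by
  induction m generalizing y with
  | zero =>
    rw [show y = (0, A.start) from hy]
    exact ⟨0, le_rfl, ReflTransGen.refl⟩
  | succ m ih =>
    rcases hy with hy | ⟨x, hx, hy⟩
    · obtain ⟨m', h1, h2⟩ := ih (by omega) hy
      exact ⟨m', by omega, h2⟩
    · obtain ⟨m', h1, h2⟩ := ih (by omega) hx
      obtain ⟨mv, k1, k2⟩ := step_of_next hy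
      have k3 : code y < K := hK (m + 1) ⟨y, Or.inr ⟨x, hx, hy⟩, rfl⟩
      obtain ⟨j, q⟩ := y
      obtain rfl : j = mvp x.1 mv := k2
      obtain ⟨-, b1, b2, b3, b4, b5, b6, -, -⟩ := hb
      exact ⟨m' + 1, by omega, h2.step (Tr.sim _ _ _ _ _ _ _ _ x.1 x.2 q mv (by omega) k1)
        ⟨by simp, b1, b2, b3, b4, b5, b6, k3.le, by simp only at b1 ⊢; omega⟩⟩

theorem run_inner (hK : ∀ m, code '' Rch A w m ⊆ Iio K)
    (hb : St.Bd ⟨1, k, c, v, e, 0, 0, 0, 0⟩ K) (hv : v ∉ code '' Rch A w (k + 1)) (i : ℕ)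
    {u : ℕ} (hu : u ≤ K) : ∃ j, Run A code K w (i, ⟨1, k, c, v, e, 0, 0, 0, 0⟩)
      (j, ⟨1, k, c, v, e, u, (code '' Rch A w k ∩ Iio u).ncard, 0, 0⟩) := by
  obtain ⟨-, b1, b2, b3, b4, -⟩ := hb
  have bd : ∀ z, (code '' Rch A w k ∩ Iio z).ncard ≤ K := fun z =>
    ncard_le_of_sub (inter_subset_left.trans (hK k))
  induction u with
  | zero => exact ⟨i, by simpa using ReflTransGen.refl⟩
  | succ u ih =>
    obtain ⟨j, h⟩ := ih (by omega)
    rcases ncard_succ (code '' Rch A w k) u with ⟨-, k1⟩ | ⟨⟨y, hy, rfl⟩, k1⟩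
    · rw [k1]
      exact ⟨_, h.step (Tr.pass _ _ _ _ _ _ _)
        ⟨by simp, b1, b2, b3, b4, hu, bd _, Nat.zero_le _, Nat.zero_le _⟩⟩
    · have hb2 : St.Bd ⟨2, k, c, v, e, code y, (code '' Rch A w k ∩ Iio (code y)).ncard, 0, 0⟩ K :=
        ⟨by simp, b1, b2, b3, b4, by simp only; omega, bd _, Nat.zero_le _, Nat.zero_le _⟩
      have h1 := (h.step (Tr.test _ _ _ _ _ _ _) hb2).trans (run_back hb2 _)
      have h2 := Run.step h1 (Tr.start0 _ _ _ _ _ _)
        ⟨by simp, b1, b2, b3, b4, by simp only; omega, bd _, le_of_lt (hK 0 ⟨_, rfl, rfl⟩),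
          Nat.zero_le _⟩
      obtain ⟨m', -, h3⟩ := run_sim hK hb2 le_rfl hy
      refine ⟨_, k1 ▸ Run.step (h2.trans h3) (Tr.found _ _ _ _ _ _ _ y.1 y.2
        (fun k2 => hv ⟨y, Or.inl hy, k2⟩) fun q mv k2 k3 =>
          hv ⟨_, Or.inr ⟨y, hy, next_of_step k2⟩, k3⟩) ?_⟩
      exact ⟨by simp, b1, b2, b3, b4, hu, k1 ▸ bd _, Nat.zero_le _, Nat.zero_le _⟩

theorem run_outer (hc : Function.Injective code) (hK : ∀ m, code '' Rch A w m ⊆ Iio K)
    (hA : ¬ A.Accepts w) (hk : k ≤ K) (i : ℕ) {v : ℕ} (hv : v ≤ K) :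
    ∃ j, Run A code K w (i, ⟨0, k, (code '' Rch A w k).ncard, 0, 0, 0, 0, 0, 0⟩)
      (j, ⟨0, k, (code '' Rch A w k).ncard, v, (code '' Rch A w (k + 1) ∩ Iio v).ncard,
        0, 0, 0, 0⟩) := by
  have b2 : (code '' Rch A w k).ncard ≤ K := ncard_le_of_sub (hK k)
  have bd : ∀ z, (code '' Rch A w (k + 1) ∩ Iio z).ncard ≤ K := fun z =>
    ncard_le_of_sub (inter_subset_left.trans (hK _))
  have z := Nat.zero_le K
  induction v with
  | zero => exact ⟨i, by simpa using ReflTransGen.refl⟩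
  | succ v ih =>
    obtain ⟨j, h⟩ := ih (by omega)
    rcases ncard_succ (code '' Rch A w (k + 1)) v with ⟨k0, k1⟩ | ⟨⟨y, hy, rfl⟩, k1⟩
    · have hb1 : St.Bd ⟨1, k, (code '' Rch A w k).ncard, v,
          (code '' Rch A w (k + 1) ∩ Iio v).ncard, 0, 0, 0, 0⟩ K :=
        ⟨by simp, hk, b2, by simp only; omega, bd _, z, z, z, z⟩
      obtain ⟨j', h1⟩ := run_inner hK hb1 k0 j le_rfl
      rw [k1]
      exact ⟨_, Run.step ((h.step (Tr.enter _ _ _ _ _) hb1).trans h1) (Tr.leave _ _ _ _ _ _ _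
        (by rw [inter_eq_left.2 (hK k)])) ⟨by simp, hk, b2, hv, bd _, z, z, z, z⟩⟩
    · refine ⟨_, k1 ▸ h.step (Tr.skip _ _ _ _ _ fun y' k2 k3 => hA ⟨y.1, y.2, rch_reach hy, ?_⟩)
        ⟨by simp, hk, b2, hv, k1 ▸ bd _, z, z, z, z⟩⟩
      rwa [← hc k2]

theorem cnt_complete (hc : Function.Injective code) (hK : ∀ m, code '' Rch A w m ⊆ Iio K)
    (hA : ¬ A.Accepts w) : (cnt A code K).Accepts w := by
  have z := Nat.zero_le K
  have key : ∀ k ≤ K, ∃ j, Run A code K w (0, (cnt A code K).start)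
      (j, ⟨0, k, (code '' Rch A w k).ncard, 0, 0, 0, 0, 0, 0⟩) := by
    intro k
    induction k with
    | zero => exact fun _ => ⟨0, by simpa [cnt, Rch] using ReflTransGen.refl⟩
    | succ k ih =>
      intro hk
      obtain ⟨j, h⟩ := ih (by omega)
      obtain ⟨j', h1⟩ := run_outer hc hK hA (by omega : k ≤ K) j le_rfl
      rw [inter_eq_left.2 (hK _)] at h1
      exact ⟨_, Run.step (h.trans h1) (Tr.stage _ _ _ _)
        ⟨by simp, hk, ncard_le_of_sub (hK _), z, z, z, z, z, z⟩⟩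
  obtain ⟨j, h⟩ := key K le_rfl
  exact ⟨_, _, h.step (Tr.fin _ _ _ _) ⟨le_rfl, z, z, z, z, z, z, z, z⟩, rfl⟩

end Complete

/-- **Inductive counting**: on the words of length at most `N` the complement of a two-way
automaton with `n` states is recognized by a two-way automaton with polynomially many states. -/
theorem compl_short (α : Type) (n N : ℕ) (A : TwoNFA α (Fin n)) :
    ∃ B : TwoNFA α (Fin (5 * (n * (N + 2) + 1) ^ 8)),
      ∀ w : List α, w.length ≤ N → (B.Accepts w ↔ ¬ A.Accepts w) := by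
  classical
  set K := n * (N + 2) with hKd
  have hn : 0 < n := A.start.pos
  have hK1 : 1 < K + 1 := by
    have : 1 * 1 ≤ K := Nat.mul_le_mul hn (by omega)
    omega
  let code : ℕ × Fin n → ℕ := fun y => y.2 + n * y.1
  have hc : Function.Injective code := by
    rintro ⟨i, p⟩ ⟨j, q⟩ h
    have h1 := congrArg (· % n) h
    have h2 := congrArg (· / n) h
    simp only [code, Nat.add_mul_mod_self_left, Nat.mod_eq_of_lt p.2, Nat.mod_eq_of_lt q.2,
      Nat.add_mul_div_left _ _ hn, Nat.div_eq_of_lt p.2, Nat.div_eq_of_lt q.2, zero_add] at h1 h2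
    exact Prod.ext h2 (Fin.ext h1)
  let g : Fin 5 × (Fin 8 → Fin (K + 1)) → St := fun a =>
    ⟨a.1, a.2 0, a.2 1, a.2 2, a.2 3, a.2 4, a.2 5, a.2 6, a.2 7⟩
  have hg : ∀ q : St, q.Bd K → q ∈ range g := by
    rintro ⟨a0, a1, a2, a3, a4, a5, a6, a7, a8⟩ ⟨b0, b1, b2, b3, b4, b5, b6, b7, b8⟩
    exact ⟨(⟨a0, Nat.lt_succ_of_le b0⟩, ![⟨a1, Nat.lt_succ_of_le b1⟩, ⟨a2, Nat.lt_succ_of_le b2⟩,
      ⟨a3, Nat.lt_succ_of_le b3⟩, ⟨a4, Nat.lt_succ_of_le b4⟩, ⟨a5, Nat.lt_succ_of_le b5⟩,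
      ⟨a6, Nat.lt_succ_of_le b6⟩, ⟨a7, Nat.lt_succ_of_le b7⟩, ⟨a8, Nat.lt_succ_of_le b8⟩]), rfl⟩
  have z := Nat.zero_le K
  obtain ⟨i0, h0⟩ := hg (cnt A code K).start
    ⟨Nat.zero_le _, z, Nat.lt_succ_iff.1 hK1, z, z, z, z, z, z⟩
  have hcard : Fintype.card (Fin 5 × (Fin 8 → Fin (K + 1))) = 5 * (K + 1) ^ 8 := by simp
  refine ⟨transport (Fintype.equivFinOfCardEq hcard) (pull (cnt A code K) g i0), fun w hw => ?_⟩
  have hK : ∀ m, code '' Rch A w m ⊆ Iio K := by
    rintro m _ ⟨y, hy, rfl⟩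
    have h1 : n * y.1 ≤ n * (N + 1) := Nat.mul_le_mul_left _ ((rch_pos hy).trans (by omega))
    have h2 := y.2.2
    have h3 : K = n * (N + 1) + n := by rw [hKd]; ring
    simp only [code, mem_Iio]
    omega
  rw [transport_accepts, pull_accepts h0 fun _ _ q _ h => hg q h.2]
  exact ⟨cnt_sound hc hK, cnt_complete hc hK⟩

end Vale.Agent.N343
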