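import Vale.Agent.P343.H744.Upper

/-!
# P343: the complement of a two-way automaton by a one-way automaton

The automaton guesses, cell by cell, sets of states which are closed under the transitions and
contain no accepting state.
-/

namespace Vale.Agent.N343

open Vale.Agent.P343 Vale.Agent.P343.H744 Relation

variable {α σ : Type}

/-- The local closure condition at a cell with the symbol `t`. -/
def Loc (A : TwoNFA α σ) (t : TapeSym α) (P S U : Set σ) : Prop :=
  ∀ p ∈ S, p ∉ A.accept ∧ (∀ q, A.step p t q Move.left → q ∈ P) ∧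
    (∀ q, A.step p t q Move.stay → q ∈ S) ∧ ∀ q, A.step p t q Move.right → q ∈ U

/-- The guessing automaton; `none` is the start, `some none` the accepting state. -/
def guess (A : TwoNFA α σ) : TwoNFA α (Option (Option (Set σ × Set σ))) where
  start := none
  accept := {some none}
  step p t q mv := ∃ P S U, ((p = none ∧ A.start ∈ S ∧ P = S) ∨ p = some (some (P, S))) ∧
    Loc A t P S U ∧ ((t ≠ TapeSym.rightEnd ∧ q = some (some (S, U)) ∧ mv = Move.right) ∨
      (t = TapeSym.rightEnd ∧ q = some none ∧ mv = Move.stay))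
  not_beyond_left := by
    rintro p q ⟨P, S, U, -, -, ⟨-, -, h⟩ | ⟨-, -, h⟩⟩ <;> cases h
  not_beyond_right := by
    rintro p q ⟨P, S, U, -, -, ⟨h, -⟩ | ⟨-, -, h⟩⟩
    · exact h rfl
    · cases h

theorem guess_oneWay (A : TwoNFA α σ) : (guess A).OneWay := by
  rintro p t q ⟨P, S, U, -, -, ⟨-, -, h⟩ | ⟨-, -, h⟩⟩ <;> cases h

/-- A family of sets which is closed on the cells `0, ..., i - 1`. -/
def Closed (A : TwoNFA α σ) (w : List α) (T : ℕ → Set σ) (i : ℕ) : Prop :=
  A.start ∈ T 0 ∧ ∀ j < i, Loc A (tape w j) (T (j - 1)) (T j) (T (j + 1))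

theorem Closed.not_accepts {A : TwoNFA α σ} {w : List α} {T : ℕ → Set σ}
    (h : Closed A w T (w.length + 2)) : ¬ A.Accepts w := by
  have key : ∀ c, ReflTransGen (A.Next w) (0, A.start) c → c.1 < w.length + 2 ∧ c.2 ∈ T c.1 := by
    intro c hc
    induction hc with
    | refl => exact ⟨by omega, h.1⟩
    | tail _ h1 ih =>
      cases h1 with
      | left i p q k => exact ⟨by have := ih.1; omega, (h.2 _ ih.1 p ih.2).2.1 q k⟩
      | stay i p q k => exact ⟨ih.1, (h.2 _ ih.1 p ih.2).2.2.1 q k⟩
      | right i p q k =>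
        refine ⟨?_, (h.2 _ ih.1 p ih.2).2.2.2 q k⟩
        by_contra hi
        rw [tape_eq (by simp only at hi; omega)] at k
        exact A.not_beyond_right _ _ k
  rintro ⟨i, q, h1, h2⟩
  exact (h.2 i (key _ h1).1 q (key _ h1).2).1 h2

theorem exists_closed {A : TwoNFA α σ} {w : List α} (h : ¬ A.Accepts w) :
    ∃ T, ∀ i, Closed A w T i := by
  refine ⟨fun i => {q | ReflTransGen (A.Next w) (0, A.start) (i, q)}, fun i =>
    ⟨ReflTransGen.refl, fun j _ p hp => ⟨fun k => h ⟨j, p, hp, k⟩, fun q k => ?_,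
      fun q k => hp.tail (TwoNFA.Next.stay _ _ _ k), fun q k => hp.tail (TwoNFA.Next.right _ _ _ k)⟩⟩⟩
  cases j with
  | zero => exact absurd k (A.not_beyond_left _ _)
  | succ j => exact ReflTransGen.tail hp (TwoNFA.Next.left _ _ _ k)

theorem Closed.extend {A : TwoNFA α σ} {w : List α} {T : ℕ → Set σ} {i : ℕ} {U : Set σ}
    (h : Closed A w T i) (k : Loc A (tape w i) (T (i - 1)) (T i) U) :
    Closed A w (Function.update T (i + 1) U) (i + 1) := by
  refine ⟨by rw [Function.update_of_ne (by omega)]; exact h.1, fun j hj => ?_⟩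
  rw [Function.update_of_ne (by omega), Function.update_of_ne (by omega)]
  rcases Nat.lt_succ_iff_lt_or_eq.1 hj with e | rfl
  · rw [Function.update_of_ne (by omega)]
    exact h.2 j e
  · rwa [Function.update_self]

theorem guess_path (A : TwoNFA α σ) (w : List α) {c : ℕ × Option (Option (Set σ × Set σ))}
    (h : ReflTransGen ((guess A).Next w) (0, none) c) :
    c = (0, none) ∨ (∃ T, Closed A w T c.1 ∧ c.2 = some (some (T (c.1 - 1), T c.1))) ∨
      (c.2 = some none ∧ ¬ A.Accepts w) := by
  have key : ∀ {i : ℕ} {p : Option (Option (Set σ × Set σ))} {P S : Set σ},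
      ((i, p) = (0, none) ∨ (∃ T, Closed A w T i ∧ p = some (some (T (i - 1), T i))) ∨
        (p = some none ∧ ¬ A.Accepts w)) →
      ((p = none ∧ A.start ∈ S ∧ P = S) ∨ p = some (some (P, S))) →
      ∃ T, Closed A w T i ∧ P = T (i - 1) ∧ S = T i := by
    rintro i p P S (e | ⟨T, h1, rfl⟩ | ⟨rfl, -⟩) (⟨k, k1, rfl⟩ | k)
    · obtain ⟨rfl, -⟩ := Prod.mk.inj e
      exact ⟨fun _ => P, ⟨k1, fun j hj => absurd hj (Nat.not_lt_zero j)⟩, rfl, rfl⟩
    · rw [k] at e
      cases e
    · cases k
    · cases k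
      exact ⟨T, h1, rfl, rfl⟩
    · cases k
    · cases k
  induction h with
  | refl => exact Or.inl rfl
  | tail _ h1 ih =>
    cases h1 with
    | left i p q k => exact absurd k (guess_oneWay A _ _ _)
    | stay i p q k =>
      obtain ⟨P, S, U, k1, k2, ⟨-, -, e⟩ | ⟨k3, rfl, -⟩⟩ := k
      · cases e
      · obtain ⟨T, h2, rfl, rfl⟩ := key ih k1
        have hi : w.length < i := not_le.1 fun hi => tape_ne hi k3
        have h3 := h2.extend k2
        exact Or.inr (Or.inr ⟨rfl, Closed.not_accepts ⟨h3.1, fun j hj => h3.2 j (by omega)⟩⟩)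
    | right i p q k =>
      obtain ⟨P, S, U, k1, k2, ⟨-, rfl, -⟩ | ⟨-, -, e⟩⟩ := k
      · obtain ⟨T, h2, rfl, rfl⟩ := key ih k1
        refine Or.inr (Or.inl ⟨_, h2.extend k2, ?_⟩)
        simp only [Nat.add_sub_cancel, Function.update_self]
        rw [Function.update_of_ne (by omega)]
      · cases e

theorem guess_accepts (A : TwoNFA α σ) (w : List α) : (guess A).Accepts w ↔ ¬ A.Accepts w := by
  constructor
  · rintro ⟨i, q, h1, h2⟩
    obtain rfl : q = some none := h2
    rcases guess_path A w h1 with e | ⟨T, -, e⟩ | ⟨-, e⟩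
    · cases e
    · cases e
    · exact e
  · intro h
    obtain ⟨T, hT⟩ := exists_closed h
    have run : ∀ i, i ≤ w.length → ReflTransGen ((guess A).Next w) (0, none)
        (i + 1, some (some (T i, T (i + 1)))) := by
      intro i
      induction i with
      | zero =>
        exact fun hi => ReflTransGen.single (TwoNFA.Next.right _ _ _ ⟨T 0, T 0, T 1,
          Or.inl ⟨rfl, (hT 0).1, rfl⟩, (hT 1).2 0 (by omega), Or.inl ⟨tape_ne hi, rfl, rfl⟩⟩)
      | succ i ih =>
        exact fun hi => (ih (by omega)).tail (TwoNFA.Next.right _ _ _ ⟨T i, T (i + 1), T (i + 2),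
          Or.inr rfl, (hT (i + 2)).2 (i + 1) (by omega), Or.inl ⟨tape_ne hi, rfl, rfl⟩⟩)
    exact ⟨w.length + 1, some none, (run _ le_rfl).tail (TwoNFA.Next.stay _ _ _
      ⟨_, _, T (w.length + 2), Or.inr rfl, (hT (w.length + 2)).2 (w.length + 1) (by omega),
        Or.inr ⟨tape_eq (by omega), rfl, rfl⟩⟩), rfl⟩

/-- The complement of a two-way automaton with `n` states is recognized by a one-way automaton
with `4 ^ n + 2` states. -/
theorem compl_oneWay (α : Type) (n : ℕ) (A : TwoNFA α (Fin n)) :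
    ∃ B : TwoNFA α (Fin (4 ^ n + 2)), B.OneWay ∧ ∀ w, B.Accepts w ↔ ¬ A.Accepts w := by
  classical
  have hcard : Fintype.card (Option (Option (Set (Fin n) × Set (Fin n)))) = 4 ^ n + 2 := by
    rw [Fintype.card_option, Fintype.card_option, Fintype.card_prod, Fintype.card_set,
      Fintype.card_fin, ← mul_pow]
    rfl
  refine ⟨transport (Fintype.equivFinOfCardEq hcard) (guess A),
    transport_oneWay _ (guess_oneWay A), fun w => ?_⟩
  rw [transport_accepts, guess_accepts]

end Vale.Agent.N343
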